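import Vale.Agent.P088.H634.Dif
import Vale.Agent.P088.H72.Norm

/-!
# P088: `C^k` bound of a difference `τ (A x + v x) - τ (A x)`
-/

open MeasureTheory Set
open scoped ContDiff Matrix

noncomputable section

namespace Vale.Agent.P088.H607

open Vale.Agent.P088.LR

variable {n : ℕ}

/-- From the derivative. -/
theorem cl_succ {F : Type*} [NormedAddCommGroup F] [NormedSpace ℝ F] {k : ℕ} {B : ℝ}
    {f : V n → F} (h0 : Cl 0 B f) (h1 : Cl k B (fderiv ℝ f)) : Cl (k + 1) B f := by
  intro l hl x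
  rcases Nat.eq_zero_or_pos l with h | h
  · subst h; exact h0 0 le_rfl x
  · obtain ⟨m, rfl⟩ : ∃ m, l = m + 1 := ⟨l - 1, by omega⟩
    rw [← norm_iteratedFDeriv_fderiv]
    exact h1 m (by omega) x

/-- Composition of operator valued functions. -/
theorem cl_comp {F : Type*} [NormedAddCommGroup F] [NormedSpace ℝ F] {k : ℕ} {a b : ℝ}
    {f : V n → (V n →L[ℝ] F)} {g : V n → (V n →L[ℝ] V n)} (hf : ContDiff ℝ ∞ f)
    (hg : ContDiff ℝ ∞ g) (h1 : Cl k a f) (h2 : Cl k b g) :
    Cl k (2 ^ k * (a * b)) (fun x => (f x).comp (g x)) := by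
  have ha : 0 ≤ a := (norm_nonneg _).trans (h1 0 (Nat.zero_le _) 0)
  have hb : 0 ≤ b := (norm_nonneg _).trans (h2 0 (Nat.zero_le _) 0)
  intro l hl x
  have e := (ContinuousLinearMap.compL ℝ (V n) (V n) F).norm_iteratedFDeriv_le_of_bilinear_of_le_one
    (N := ∞) hf hg x (n := l) (by exact_mod_cast le_top)
    (ContinuousLinearMap.norm_compL_le ℝ (V n) (V n) F)
  refine e.trans ?_
  calc ∑ i ∈ Finset.range (l + 1), (l.choose i : ℝ) * ‖iteratedFDeriv ℝ i f x‖
        * ‖iteratedFDeriv ℝ (l - i) g x‖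
      ≤ ∑ i ∈ Finset.range (l + 1), (l.choose i : ℝ) * (a * b) := by
        refine Finset.sum_le_sum fun i hi => ?_
        rw [Finset.mem_range] at hi
        have h3 := h1 i (by omega) x
        have h4 := h2 (l - i) (by omega) x
        rw [mul_assoc]
        gcongr
    _ = 2 ^ l * (a * b) := by
        rw [← Finset.sum_mul]
        congr 1
        exact_mod_cast Nat.sum_range_choose l
    _ ≤ 2 ^ k * (a * b) := by
        have : (2 : ℝ) ^ l ≤ 2 ^ k := pow_le_pow_right₀ (by norm_num) hl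
        gcongr

theorem cl_add607 {F : Type*} [NormedAddCommGroup F] [NormedSpace ℝ F] {k : ℕ} {a b : ℝ}
    {f g : V n → F} (hf : ContDiff ℝ ∞ f) (hg : ContDiff ℝ ∞ g)
    (h1 : Cl k a f) (h2 : Cl k b g) : Cl k (a + b) (fun x => f x + g x) := by
  intro l hl x
  have : iteratedFDeriv ℝ l (fun x => f x + g x) x =
      iteratedFDeriv ℝ l f x + iteratedFDeriv ℝ l g x :=
    iteratedFDeriv_add_apply (hf.of_le (by exact_mod_cast le_top)).contDiffAt
      (hg.of_le (by exact_mod_cast le_top)).contDiffAt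
  rw [this]
  exact (norm_add_le _ _).trans (add_le_add (h1 l hl x) (h2 l hl x))

/-- **The difference estimate.** -/
theorem diffc (k : ℕ) : ∀ D B : ℝ, 1 ≤ D → 0 ≤ B → ∃ C > 0, ∀ (n : ℕ) (F : Type)
    [NormedAddCommGroup F] [NormedSpace ℝ F] (τ : V n → F) (A v : V n → V n),
    ContDiff ℝ ∞ τ → ContDiff ℝ ∞ A → ContDiff ℝ ∞ v →
    (∀ i, 1 ≤ i → i ≤ k + 1 → ∀ x, ‖iteratedFDeriv ℝ i τ x‖ ≤ B) →
    (∀ i, 1 ≤ i → i ≤ k → ∀ x, ‖iteratedFDeriv ℝ i A x‖ ≤ D) →
    ∀ δ, δ ≤ 1 → Cl k δ v → Cl k (C * δ) (fun x => τ (A x + v x) - τ (A x)) := by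
  induction k with
  | zero =>
    intro D B hD hB
    refine ⟨B + 1, by positivity, fun n F _ _ τ A v hτ hA hv hτb hAb δ hδ1 hvc l hl x => ?_⟩
    have hl0 : l = 0 := by omega
    subst hl0
    rw [norm_iteratedFDeriv_zero]
    have hδ0 : 0 ≤ δ := (norm_nonneg _).trans (hvc 0 le_rfl x)
    have h1 : ‖τ (A x + v x) - τ (A x)‖ ≤ B * ‖A x + v x - A x‖ :=
      Convex.norm_image_sub_le_of_norm_fderiv_le (s := univ)
        (fun y _ => (hτ.differentiable (by simp)) y)
        (fun y _ => by rw [← norm_iteratedFDeriv_one]; exact hτb 1 le_rfl le_rfl y)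
        convex_univ (mem_univ _) (mem_univ _)
    have h2 : ‖v x‖ ≤ δ := by
      have := hvc 0 le_rfl x
      rwa [norm_iteratedFDeriv_zero] at this
    rw [add_sub_cancel_left] at h1
    calc ‖τ (A x + v x) - τ (A x)‖ ≤ B * ‖v x‖ := h1
      _ ≤ B * δ := by gcongr
      _ ≤ (B + 1) * δ := by gcongr; linarith
  | succ k ih =>
    intro D B hD hB
    obtain ⟨C, hC, hi⟩ := ih D B hD hB
    refine ⟨(B + 1) + (2 ^ k * (C * D) + 2 ^ k * ((k.factorial : ℝ) * B * (D + 1) ^ k)),
      by positivity, fun n F _ _ τ A v hτ hA hv hτb hAb δ hδ1 hvc => ?_⟩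
    have hδ0 : 0 ≤ δ := (norm_nonneg _).trans (hvc 0 (Nat.zero_le _) 0)
    have hτ' : ContDiff ℝ ∞ (fderiv ℝ τ) := hτ.fderiv_right (m := ∞) (by simp)
    have hA' : ContDiff ℝ ∞ (fderiv ℝ A) := hA.fderiv_right (m := ∞) (by simp)
    have hv' : ContDiff ℝ ∞ (fderiv ℝ v) := hv.fderiv_right (m := ∞) (by simp)
    have hAv : ContDiff ℝ ∞ (fun x => A x + v x) := hA.add hv
    -- the derivative
    have hder : fderiv ℝ (fun x => τ (A x + v x) - τ (A x)) = fun x =>
        (fderiv ℝ τ (A x + v x) - fderiv ℝ τ (A x)).comp (fderiv ℝ A x) +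
          (fderiv ℝ τ (A x + v x)).comp (fderiv ℝ v x) := by
      funext x
      have e1 : HasFDerivAt A (fderiv ℝ A x) x := (hA.differentiable (by simp) x).hasFDerivAt
      have e2 : HasFDerivAt v (fderiv ℝ v x) x := (hv.differentiable (by simp) x).hasFDerivAt
      have e3 : HasFDerivAt (fun x => τ (A x + v x))
          ((fderiv ℝ τ (A x + v x)).comp (fderiv ℝ A x + fderiv ℝ v x)) x :=
        HasFDerivAt.comp x (g := τ) (hτ.differentiable (by simp) _).hasFDerivAt (e1.add e2)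
      have e4 : HasFDerivAt (fun x => τ (A x)) ((fderiv ℝ τ (A x)).comp (fderiv ℝ A x)) x :=
        HasFDerivAt.comp x (g := τ) (hτ.differentiable (by simp) _).hasFDerivAt e1
      have e5 : HasFDerivAt (fun x => τ (A x + v x) - τ (A x))
          ((fderiv ℝ τ (A x + v x)).comp (fderiv ℝ A x + fderiv ℝ v x) -
            (fderiv ℝ τ (A x)).comp (fderiv ℝ A x)) x := e3.sub e4
      rw [e5.fderiv]
      ext z
      simp only [ContinuousLinearMap.comp_apply, add_apply, sub_apply, map_add]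
      abel
    -- the pieces
    have p1 : Cl k (C * δ) (fun x => fderiv ℝ τ (A x + v x) - fderiv ℝ τ (A x)) :=
      hi n (V n →L[ℝ] F) (fderiv ℝ τ) A v hτ' hA hv
        (fun i hi1 hi2 x => by
          rw [norm_iteratedFDeriv_fderiv]; exact hτb (i + 1) (by omega) (by omega) x)
        (fun i hi1 hi2 x => hAb i hi1 (by omega) x) δ hδ1 (fun l hl x => hvc l (by omega) x)
    have p2 : Cl k D (fderiv ℝ A) := by
      intro l hl x
      rw [norm_iteratedFDeriv_fderiv]
      exact hAb (l + 1) (by omega) (by omega) x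
    have p3 : Cl k δ (fderiv ℝ v) := by
      intro l hl x
      rw [norm_iteratedFDeriv_fderiv]
      exact hvc (l + 1) (by omega) x
    have p4 : Cl k ((k.factorial : ℝ) * B * (D + 1) ^ k) (fun x => fderiv ℝ τ (A x + v x)) := by
      intro l hl x
      have := norm_iteratedFDeriv_comp_le (g := fderiv ℝ τ) (f := fun x => A x + v x) (N := ∞)
        hτ' hAv (n := l) (by exact_mod_cast le_top) x (C := B) (D := D + 1)
        (fun j hj => by
          rw [norm_iteratedFDeriv_fderiv]; exact hτb (j + 1) (by omega) (by omega) _)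
        (fun j hj1 hj2 => by
          have e5 : iteratedFDeriv ℝ j (fun x => A x + v x) x =
              iteratedFDeriv ℝ j A x + iteratedFDeriv ℝ j v x :=
            iteratedFDeriv_add_apply (hA.of_le (by exact_mod_cast le_top)).contDiffAt
              (hv.of_le (by exact_mod_cast le_top)).contDiffAt
          rw [e5]
          calc ‖iteratedFDeriv ℝ j A x + iteratedFDeriv ℝ j v x‖
              ≤ ‖iteratedFDeriv ℝ j A x‖ + ‖iteratedFDeriv ℝ j v x‖ := norm_add_le _ _
            _ ≤ D + 1 := add_le_add (hAb j hj1 (by omega) x) ((hvc j (by omega) x).trans hδ1)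
            _ = (D + 1) ^ 1 := (pow_one _).symm
            _ ≤ (D + 1) ^ j := pow_le_pow_right₀ (by linarith) hj1)
      refine this.trans ?_
      have h2 : (l.factorial : ℝ) ≤ k.factorial := by exact_mod_cast Nat.factorial_le hl
      have h3 : (D + 1) ^ l ≤ (D + 1) ^ k := pow_le_pow_right₀ (by linarith) hl
      gcongr
    have s1 : ContDiff ℝ ∞ (fun x => fderiv ℝ τ (A x + v x)) := hτ'.comp hAv
    have s2 : ContDiff ℝ ∞ (fun x => fderiv ℝ τ (A x)) := hτ'.comp hA
    have q1 := cl_comp (s1.sub s2) hA' p1 p2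
    have q2 := cl_comp s1 hv' p4 p3
    have q3 := cl_add607 ((s1.sub s2).clm_comp hA') (s1.clm_comp hv') q1 q2
    rw [← hder] at q3
    refine cl_succ ?_ ?_
    · intro l hl x
      have hl0 : l = 0 := by omega
      subst hl0
      rw [norm_iteratedFDeriv_zero]
      have h1 : ‖τ (A x + v x) - τ (A x)‖ ≤ B * ‖A x + v x - A x‖ :=
        Convex.norm_image_sub_le_of_norm_fderiv_le (s := univ)
          (fun y _ => (hτ.differentiable (by simp)) y)
          (fun y _ => by rw [← norm_iteratedFDeriv_one]; exact hτb 1 le_rfl (by omega) y)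
          convex_univ (mem_univ _) (mem_univ _)
      have h2 : ‖v x‖ ≤ δ := by
        have := hvc 0 (Nat.zero_le _) x
        rwa [norm_iteratedFDeriv_zero] at this
      rw [add_sub_cancel_left] at h1
      have h3 : 0 ≤ (2 ^ k * (C * D) + 2 ^ k * ((k.factorial : ℝ) * B * (D + 1) ^ k)) * δ := by
        positivity
      calc ‖τ (A x + v x) - τ (A x)‖ ≤ B * ‖v x‖ := h1
        _ ≤ B * δ := by gcongr
        _ ≤ ((B + 1) + (2 ^ k * (C * D) + 2 ^ k * ((k.factorial : ℝ) * B * (D + 1) ^ k))) * δ := by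
          nlinarith
    · refine H72.cl_mono q3 ?_
      have h3 : 0 ≤ (B + 1) * δ := by positivity
      calc 2 ^ k * (C * δ * D) + 2 ^ k * ((k.factorial : ℝ) * B * (D + 1) ^ k * δ)
          = (2 ^ k * (C * D) + 2 ^ k * ((k.factorial : ℝ) * B * (D + 1) ^ k)) * δ := by ring
        _ ≤ ((B + 1) + (2 ^ k * (C * D) + 2 ^ k * ((k.factorial : ℝ) * B * (D + 1) ^ k))) * δ := by
          linarith

end Vale.Agent.P088.H607
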